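import Vale.Agent.P297A41.Rows
import Vale.Agent.P297L93.Mor1

/-!
# Closed subschemes of the projective space have very ample data
-/

set_option linter.all false

open CategoryTheory AlgebraicGeometry MonoidalCategory Opposite

namespace Vale.Agent.P297A.V93

open Vale.Agent.P009S (VA ev cst resid)
open Vale.Agent.P297G93.W MvPolynomial HomogeneousLocalization

attribute [local instance] MvPolynomial.gradedAlgebra open_chartP

variable {G : Sch} {ι : Type} [Fintype ι]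

theorem res_res {Z : Scheme.{0}} {U V W : Z.Opens} (a : V ⟶ U) (b : W ⟶ V) (c : W ⟶ U)
    (t : Γ(Z, U)) : (Z.presheaf.map b.op).hom ((Z.presheaf.map a.op).hom t) =
      (Z.presheaf.map c.op).hom t := by
  rw [← RingHom.comp_apply, ← CommRingCat.hom_comp, ← Functor.map_comp]
  rfl

theorem closed_of {U V Y Z : Scheme.{0}} (g : U ⟶ V) (iU : U ⟶ Y) (iV : V ⟶ Z) (f : Y ⟶ Z)
    [IsOpenImmersion iU] [IsOpenImmersion iV] [h : IsClosedImmersion f] (H : iU ≫ f = g ≫ iV)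
    (H' : f ⁻¹ᵁ iV.opensRange = iU.opensRange) : IsClosedImmersion g :=
  MorphismProperty.of_isPullback (P := @IsClosedImmersion)
    (IsOpenImmersion.isPullback g iU iV f H H').flip h

theorem cst_top (G : Sch) (c : ℂ) : cst G ⊤ c = cG G.hom c := by
  have h : G.hom.appTop = G.hom.appLE ⊤ ⊤ le_top := Scheme.Hom.app_eq_appLE G.hom
  rw [cG, h]
  rfl

theorem resid_cx (x : Pt G) (c : ℂ) : resid x (cx G.hom (P009S.pt x) c) = c := by
  have h := P009S.ev_cst x ⊤ trivial c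
  rw [cst_top] at h
  exact h

theorem ev_top (x : Pt G) (U : G.left.Opens) (h : P009S.pt x ∈ U) (t : Γ(U.toScheme, ⊤)) :
    ev x U h (U.topIso.hom.hom t) = resid x (gU U (P009S.pt x) h t) := by
  refine congrArg (resid x) ?_
  rw [Scheme.Opens.topIso_hom]
  exact G.left.presheaf.germ_res_apply _ _ _ _

theorem top_cG (U : G.left.Opens) (c : ℂ) :
    U.topIso.hom.hom (cG (U.ι ≫ G.hom) c) = cst G U c := by
  rw [← appTop_cG, ← cst_top, ← P009S.cst_res (le_top : U ≤ ⊤), Scheme.Opens.topIso_hom,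
    Scheme.Opens.ι_appTop]
  exact res_res _ _ _ _

theorem key (i : G.left ⟶ Pj ι) (U : G.left.Opens) (j : ι) (u : ι → Γ(U.toScheme, ⊤))
    (hu : u j = 1) (hq : U.ι ≫ i = toP (U.ι ≫ G.hom) j u hu) (x : Pt G) (h : P009S.pt x ∈ U)
    {d : ℕ} {F : MvPolynomial ι ℂ} (hF : F ∈ gr ι d) :
    i (P009S.pt x) ∈ Proj.basicOpen (gr ι) F ↔
      eval (fun k => ev x U h (U.topIso.hom.hom (u k))) F ≠ 0 := by
  rw [mem_toP G.hom U _ h j u hu hq hF, ← P009S.resid_ne_zero, map_eval₂Hom]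
  have h1 : (resid x).comp (cx G.hom (P009S.pt x)) = RingHom.id ℂ := RingHom.ext (resid_cx x)
  have h2 : (fun k => ev x U h (U.topIso.hom.hom (u k))) =
      fun k => resid x (gU U (P009S.pt x) h (u k)) := funext fun k => ev_top x U h (u k)
  rw [h1, h2]
  rfl

theorem gen (i : G.left ⟶ Pj ι) [IsClosedImmersion i] (j : ι)
    (u : ι → Γ((i ⁻¹ᵁ DP j).toScheme, ⊤)) (hu : u j = 1)
    (hq : (i ⁻¹ᵁ DP j).ι ≫ i = toP ((i ⁻¹ᵁ DP j).ι ≫ G.hom) j u hu)
    (t : Γ((i ⁻¹ᵁ DP j).toScheme, ⊤)) :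
    ∃ p : MvPolynomial ι ℂ, t = eval₂ (cG ((i ⁻¹ᵁ DP j).ι ≫ G.hom)) u p := by
  let φ := awayHom (cG ((i ⁻¹ᵁ DP j).ι ≫ G.hom)) u (X j) (isUnit_X _ u hu)
  have hc : IsClosedImmersion (toSp (CommRingCat.ofHom φ)) :=
    closed_of _ (i ⁻¹ᵁ DP j).ι (chartP j) i (hq.trans (by rw [toP]))
      (by rw [opensRange_chartP, Scheme.Opens.opensRange_ι])
  have hs := (@IsClosedImmersion.isAffine_surjective_of_isAffine _ _ _ _ hc).2
  rw [toSp_appTop] at hs
  obtain ⟨z, hz⟩ := hs t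
  obtain ⟨p, hp⟩ := exists_eval₂ j ((Scheme.ΓSpecIso (CommRingCat.of (Away (gr ι) (X j)))).hom z)
  refine ⟨p, ?_⟩
  have h1 := eval₂_comp_left φ (cz (X j)) (fun k => fr k j) p
  have h2 : φ.comp (cz (X j)) = cG ((i ⁻¹ᵁ DP j).ι ≫ G.hom) :=
    RingHom.ext fun c => awayHom_cz _ u (X j) (isUnit_X _ u hu) c
  have h3 : (φ ∘ fun k => fr k j) = u := funext fun k => awayHom_fr _ u hu k
  rw [hp, h2, h3] at h1
  exact hz.symm.trans h1

theorem vap' (i : G.left ⟶ Pj ι) [IsClosedImmersion i] (hs : i ≫ str ι = G.hom) :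
    ∃ (D : VA G ι ι) (e : Pt G → P009.AV.PP ℂ ι), D.IsEmb e ∧
      ∀ x (d : ℕ), ∀ F ∈ gr ι d, i (P009S.pt x) ∈ Proj.basicOpen (gr ι) F ↔
        eval (e x).rep F ≠ 0 := by
  choose u hu hq using fun j => exists_toP ((i ⁻¹ᵁ DP j).ι ≫ G.hom) ((i ⁻¹ᵁ DP j).ι ≫ i)
    (by rw [Category.assoc, hs]) j (by
      rw [Scheme.Hom.comp_preimage]
      exact Scheme.Opens.ι_preimage_self _)
  have hone : ∀ a, (i ⁻¹ᵁ DP a).topIso.hom.hom (u a a) = 1 := fun a => by rw [hu, map_one]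
  let D : VA G ι ι :=
    { U := fun j => i ⁻¹ᵁ DP j
      r := id
      s := fun j k => (i ⁻¹ᵁ DP j).topIso.hom.hom (u j k)
      aff := fun j => by
        have h : IsAffineOpen (DP (ι := ι) j) := by
          rw [← opensRange_chartP]
          exact isAffineOpen_opensRange _
        exact h.preimage i
      cov := fun x => exists_mem_DP (i x)
      one := hone
      mem := fun a b x h => by
        have h1 := key i _ a (u a) (hu a) (hq a) x h (X_mem_gr b)
        rw [eval_X] at h1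
        exact h1
      coc := fun a b x ha hb j => by
        have hF : (X j - C (ev x _ hb ((i ⁻¹ᵁ DP b).topIso.hom.hom (u b j))) * X b :
            MvPolynomial ι ℂ) ∈ gr ι 1 := by
          rw [C_mul']
          exact Submodule.sub_mem _ (X_mem_gr j) (Submodule.smul_mem _ _ (X_mem_gr b))
        have h1 := (key i _ a (u a) (hu a) (hq a) x ha hF).symm.trans
          (key i _ b (u b) (hu b) (hq b) x hb hF)
        simp only [map_sub, map_mul, eval_X, eval_C] at h1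
        rw [hone b, map_one, mul_one, sub_self] at h1
        have h2 := not_not.1 fun h => h1.1 h rfl
        rw [sub_eq_zero, mul_comm] at h2
        exact h2
      gen := fun a t => by
        obtain ⟨p, hp⟩ := gen i a (u a) (hu a) (hq a) ((i ⁻¹ᵁ DP a).topIso.inv.hom t)
        refine ⟨p, ?_⟩
        have h1 := eval₂_comp_left (i ⁻¹ᵁ DP a).topIso.hom.hom
          (cG ((i ⁻¹ᵁ DP a).ι ≫ G.hom)) (u a) p
        have h2 : (i ⁻¹ᵁ DP a).topIso.hom.hom.comp (cG ((i ⁻¹ᵁ DP a).ι ≫ G.hom)) =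
            cst G (i ⁻¹ᵁ DP a) := RingHom.ext (top_cG _)
        rw [← hp, h2] at h1
        exact (congrArg (fun f => f.hom t) (i ⁻¹ᵁ DP a).topIso.inv_hom_id).symm.trans h1 }
  obtain ⟨e, he⟩ := D.exists_emb
  refine ⟨D, e, he, fun x d F hF => ?_⟩
  obtain ⟨a, ha⟩ := D.cov (P009S.pt x)
  obtain ⟨c, hc, h1⟩ := he x a ha
  rw [funext h1, eval_mul_ne hF _ hc]
  exact key i _ a (u a) (hu a) (hq a) x ha hF

end Vale.Agent.P297A.V93

namespace Vale.Agent.P297A

theorem vap : VAP := fun _ _ _ i hi hs => @V93.vap' _ _ _ i hi hs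

end Vale.Agent.P297A
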